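import Vale.Agent.P141.H433.CrW
import Vale.Agent.P141.H639.NumC
import Vale.Agent.P141.H675.OfSlot
import Vale.Agent.P141.H636.FibF

/-!
# P141, line (A): the pair `(b, C~)`, both saturated, as a statement of one slot

`phiC : PartS H636.FDU PhiC`, over `H840.RX_BC_FD`, `H433.CrW.WS_le`, `H639.NumL.num_C`.
-/

set_option linter.unusedSectionVars false

namespace Vale.Agent.P141.H973

open Finset Matrix
open Vale.Agent.P141.PL (Pt iv ix cx cb)
open Vale.Agent.P141.H677.Sk (lam1)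
open Vale.Agent.P141.H186.PS
open Vale.Agent.P141.H277.Phi
open Vale.Agent.P141.H675.PX

noncomputable section

open scoped Classical

/-- **The crude pair of one slot**, the statement of `H277.Phi`. -/
theorem phiC : PartS H636.FDU PhiC := by
  refine PartS.of_slot
    (fun q => 40000 * (128 * (q.cP + 2) * (q.CD + 4) + 204600 * q.e) + 12) ?_
  intro ι _ _ q n ez F1 F2 F3 o K x s r U g u v A b' C' R κ E h j e ha0 ha1 he0 he01 hk8 hk81 hk3
    hk31 hc hc1 hd hd1 hKt hqe hcP hL hCD ht ht1 hU1 hU3 hE2 ho hKn hs hr hcls hD hκ hE hEL hR hh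
    hj he8
  obtain ⟨hfU, _, Q1, Q2, Q3, v', hF⟩ := hD
  intro hez m N0 hm hm1 hN0 hN t' ht' Lb eb' heb hmb
  set D : ℝ := 128 * (q.cP + 2) * (q.CD + 4) + 204600 * q.e with hDd
  have hD0 : 0 ≤ D := by rw [hDd]; positivity
  have hr0 : 0 < r := by linarith
  have hκ0 : 0 < κ := by linarith
  have hlam : 0 < q.lam s r := by
    unfold H401.Num.lam
    have := Real.rpow_pos_of_pos ht (2 - q.e0)
    have := Real.rpow_pos_of_pos hr0 q.e0
    have := Real.sqrt_pos.2 hs
    positivity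
  have hl1 : 0 ≤ lam1 q s r := by
    unfold H677.Sk.lam1
    have := Real.rpow_pos_of_pos ht (-8)
    have := Real.rpow_pos_of_pos hr0 8
    positivity
  have hLm : 1 ≤ q.Lm := by
    unfold H401.Num.Lm
    exact Real.one_le_rpow_of_pos_of_le_one_of_nonpos ht ht1 (by linarith)
  have hε : 0 < m ^ (1 / 4 : ℝ) := Real.rpow_pos_of_pos hm _
  have hε1 : m ^ (1 / 4 : ℝ) ≤ 1 := Real.rpow_le_one hm.le hm1 (by norm_num)
  have hX : 40000 * D + 12 ≤ max 1 (40000 * (128 * ((wot q).cP + 2) * ((wot q).CD + 4) +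
      204600 * (wot q).e) + 12) := le_max_right _ _
  refine ⟨10 ^ 4 * ((m ^ (1 / 4 : ℝ) + κ) ^ 2 * ((m ^ (1 / 4 : ℝ)) ^ 2)⁻¹) *
    (D / 2 * (q.t ^ (-q.d) * s * 8 ^ K) +
        D / 2 * (q.t ^ (-8 : ℝ) * √s * r ^ (8 : ℝ)) * (q.t ^ (2 - q.e0) * √s * r ^ q.e0)⁻¹ *
          s * 8 ^ K), by positivity, ?_, ?_⟩
  · refine (H639.NumL.num_C (K := K) ht ht1 hr hs he0 he01 hc hd.le hκ hm hm1 hD0 hX).trans ?_
    have hMM : 0 ≤ MM q s r κ K := by
      unfold MM
      have := lgS_one ht ht1 hr hκ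
      have : 0 ≤ lgS q r κ := by linarith
      positivity
    have hHH : 0 ≤ HH q r κ (max 1 (40000 * (128 * ((wot q).cP + 2) * ((wot q).CD + 4) +
      204600 * (wot q).e) + 12)) := by
      unfold HH
      positivity
    refine mul_le_mul_of_nonneg_right (mul_le_mul_of_nonneg_left ?_ (by positivity)) hHH
    show MM q s r κ K ≤ _
    linarith
  · intro h' hh' _
    refine (H840.RX_BC_FD hF hcls.toCls hs.le hLm (by linarith) hez hKn heb hmb hj hR hκ hε hε1
      hh').trans ?_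
    refine mul_le_mul_of_nonneg_left (mul_le_mul_of_nonneg_right (mul_le_mul_of_nonneg_left ?_
      (by positivity)) (by positivity)) (by positivity)
    refine add_le_add ?_ ((H433.CrW.WS_le hF hcls.toCls hfU hqe hl1 hez hKn heb hmb hh j t' he8 hε
      hR hlam ho hκ0).trans ?_)
    · have e1 : 64 * (q.cP + 2) * (q.CD * (q.Lm * s) + 4 * (q.Lm * s)) * 8 ^ K =
          (128 * (q.cP + 2) * (q.CD + 4)) / 2 * (q.t ^ (-q.d) * s * 8 ^ K) := by
        unfold H401.Num.Lm
        ring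
      rw [e1]
      refine mul_le_mul_of_nonneg_right ?_ (by positivity)
      rw [hDd]
      linarith
    · have hk2 : (κ ^ 2)⁻¹ ≤ 1 := inv_le_one_of_one_le₀ (one_le_pow₀ hκ)
      have h1 : 0 ≤ 204600 * (q.e * lam1 q s r) * ((2 * q.lam s r)⁻¹ * (s * 8 ^ K)) := by
        positivity
      refine (mul_le_of_le_one_left h1 hk2).trans ?_
      have e1 : 204600 * (q.e * lam1 q s r) * ((2 * q.lam s r)⁻¹ * (s * 8 ^ K)) =
          (204600 * q.e) / 2 * (lam1 q s r * (q.lam s r)⁻¹ * s * 8 ^ K) := by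
        rw [mul_inv]
        ring
      have e2 : D / 2 * (q.t ^ (-8 : ℝ) * √s * r ^ (8 : ℝ)) *
          (q.t ^ (2 - q.e0) * √s * r ^ q.e0)⁻¹ * s * 8 ^ K =
          D / 2 * (lam1 q s r * (q.lam s r)⁻¹ * s * 8 ^ K) := by
        unfold H677.Sk.lam1 H401.Num.lam
        ring
      rw [e1, e2]
      refine mul_le_mul_of_nonneg_right ?_ (by positivity)
      rw [hDd]
      have : 0 ≤ 128 * (q.cP + 2) * (q.CD + 4) := by positivity
      linarith

end

end Vale.Agent.P141.H973
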