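import Vale.Agent.P141.H973.RowPM
import Vale.Agent.P141.H747.StageM

/-!
# P141, line (A): the row traces of the slots `b`, `σ C` of one stage, from `FDs`

`hF`, `hH` : the rows of `H433.rt` in the letters of `H609.RPW.lo_RP_labW` at the slots
`H747.MSb`, `shC`.
-/

set_option linter.unusedSectionVars false

namespace Vale.Agent.P141.H973.RowPM

open Finset Matrix
open Vale.Agent.P141.PL (Pt iv ix mem_iv ix_ix)
open Vale.Agent.P141.PL.H315 (Tri)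
open Vale.Agent.P141.H677.Sk (FDs lam1 FamA FamV)
open Vale.Agent.P141.H401 (FibU FibP)
open Vale.Agent.P141.H958 (lbs)
open Vale.Agent.P141.H609.RPW (eb ec rt_eb rt_ec)
open Vale.Agent.P141.H747 (sft shB shC MSb)

noncomputable section

open scoped Classical

variable {ι : Type} [Fintype ι] [DecidableEq ι] {q : H401.Num} {n : ℕ} {ez : ℝ}
  {F1 F2 F3 : ℕ → Pt → ℝ} {K : ℕ} {x : Pt} {s r : ℝ} {U : Tri} {g : ℤ → ℤ → ℝ}
  {u v : ℤ → ℤ → ι → ℝ} {A : FamA} {b C : FamV ι} {Q1 Q2 Q3 : ℕ → Pt → Prop}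
  {v' : ℤ → ℤ → ι → ℝ} {L : ℕ} {e : ι ⊕ ι → ℤ}

theorem half_pow {k : ℕ} {X ρ : ℝ} (h : X ≤ 4 ^ k * (6 * ρ)) :
    ((2 : ℝ) ^ (k + 1))⁻¹ * X ≤ 3 * ρ * 2 ^ k := by
  refine (mul_le_mul_of_nonneg_left h (by positivity)).trans (le_of_eq ?_)
  have e4 : (4 : ℝ) ^ k = 2 ^ k * 2 ^ k := by
    rw [← mul_pow]
    norm_num
  rw [e4, pow_succ]
  field_simp
  ring

/-- **Row traces of `b`.** -/
theorem hF (he : Function.Injective e) (hm : ∀ i, e i ∈ lbs L)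
    (h : FDs q n ez F1 F2 F3 K x s r U g u v A b C Q1 Q2 Q3 v') (hK : K ≤ n)
    (hq : 0 ≤ q.e) (hl : 0 ≤ lam1 q s r) (hf : FibU q K x s r U u) {M : Pt}
    (hM1 : M.1 = ix K x.1) (hM2 : M.2.1 = ix K x.2.1) (w : Pt) :
    ∀ k < K, ∀ a m p : ℤ, ∑ x0 ∈ iv k a,
      H433.rt L (eb L e (MSb K M b w x0) (L + (k + 1))) (k + 1) m p ≤
        3 * (q.e * lam1 q s r) * 2 ^ k := by
  intro k hk a m p
  have h1 := rowB4 h hK hq hl hf hM1 hM2 w k hk a m p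
  rw [show 6 * q.e * lam1 q s r = 6 * (q.e * lam1 q s r) by ring] at h1
  have h2 := half_pow h1
  rw [mul_sum] at h2
  refine le_trans (le_of_eq (sum_congr rfl fun x0 _ => ?_)) h2
  exact rt_inr he hm (shB K M w (b x0)) (k + 1) (k + 1) m p

/-- **Row traces of `σ C`**, `σ ^ 2 ez ≤ 1`. -/
theorem hH (he : Function.Injective e) (hm : ∀ i, e i ∈ lbs L)
    (h : FDs q n ez F1 F2 F3 K x s r U g u v A b C Q1 Q2 Q3 v') (hK : K ≤ n)
    (hez : 0 ≤ ez) (hl : 0 ≤ lam1 q s r) {σ : ℝ} (hσ : σ ^ 2 * ez ≤ 1) {M : Pt}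
    (hM1 : M.1 = ix K x.1) (hM3 : M.2.2 = ix K x.2.2) (w : Pt) :
    ∀ k < K, ∀ a m p : ℤ, ∑ x0 ∈ iv k a,
      H433.rt L (ec L e (shC K M w fun k z x => σ • C x0 k z x) (L + (k + 1))) (k + 1) m p ≤
        3 * lam1 q s r * 2 ^ k := by
  intro k hk a m p
  have h2 := half_pow (rowC4 h hK hez hl hσ hM1 hM3 w k hk a m p)
  rw [mul_sum] at h2
  refine le_trans (le_of_eq (sum_congr rfl fun x0 _ => ?_)) h2
  exact rt_inl he hm (shC K M w fun k z x => σ • C x0 k z x) (k + 1) (k + 1) m p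

/-- `σ = (√ez)⁻¹` -/
theorem sqrt_inv_sq {ez : ℝ} (h : 0 < ez) : ((√ez)⁻¹) ^ 2 * ez ≤ 1 := by
  rw [inv_pow, Real.sq_sqrt h.le, inv_mul_cancel₀ h.ne']

end

end Vale.Agent.P141.H973.RowPM
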