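import Vale.Agent.P141.H585.PairR

/-!
# The pair (B, C~), hub x1, real letters, both slots saturated

`SG_outer0`: the outer step without a move (no cap). `stk_P`: the partner without a move is a
`H336.Stk`, every level. `pair_sat`: the plane sum with the saturated partner, the numbers of the
partner are its mass and the mass of its changes. `pair_sat_h`: one height `h`.
-/

set_option linter.unusedSectionVars false

namespace Vale.Agent.P141.H973.PairSat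

open Finset Matrix Vale.Agent.P075 Vale.Agent.P141.PL Vale.Agent.P141.PL.H103 Vale.Agent.P141.H103
open Vale.Agent.P141.H389 Vale.Agent.P141.H585.PairCh Vale.Agent.P141.H585.PairO
open Vale.Agent.P141.H585.PhiSat Vale.Agent.P141.H585.PairS Vale.Agent.P141.H585.PairF
open Vale.Agent.P141.H505 Vale.Agent.P141.H297.Ch Vale.Agent.P141.H585.StkG
open Vale.Agent.P141.H585.PairR
open Vale.Agent.P141.H336 (Stk)
open Vale.Agent.P141.H43 (av av_half av_mono av_nonneg av_add av_sub av_mul)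

noncomputable section

/-! ### The partner alone -/

section outer

variable {α : Type*} [Fintype α] [DecidableEq α]

/-- the outer step without a move, all levels, no cap -/
theorem SG_outer0 {X₀ X₁ : Matrix α α ℝ} (h0 : X₀.PosSemidef) (h1 : X₁.PosSemidef) {μ : ℝ}
    (hμ : 0 < μ) (J : ℕ) :
    SG μ J ((1 / 2 : ℝ) • (X₀ + X₁)) + (1 / 2) * SD μ J X₀ X₁
      ≤ (1 / 2) * (SG μ J X₀ + SG μ J X₁) := by
  unfold SG SD
  rw [mul_sum, ← sum_add_distrib, ← sum_add_distrib, mul_sum]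
  refine sum_le_sum fun j _ => ?_
  have h4 : 0 < μ / 4 ^ j := by positivity
  have r1 := R.GX_row (smul_psd h0 h4.le) (smul_psd h1 h4.le)
  have e0 : (1 / 2 : ℝ) • ((μ / 4 ^ j) • X₀ + (μ / 4 ^ j) • X₁)
      = (μ / 4 ^ j) • ((1 / 2 : ℝ) • (X₀ + X₁)) := by module
  rw [e0] at r1
  have r3 := mul_le_mul_of_nonneg_left r1 (inv_nonneg.mpr h4.le)
  linarith

end outer

section node

variable {ι : Type*} [Fintype ι] [DecidableEq ι]
variable {b db : ℕ → ℤ → ℤ → ι ⊕ ι → ℝ}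

/-- the charge of the middle step of the partner -/
def pP (J : ℕ) (db : ℕ → ℤ → ℤ → ι ⊕ ι → ℝ) (k a : ℕ) (n m : ℤ) : ℝ := ((J : ℝ) + 1)
  * av a n fun y => av (k + 1) m fun x => ∑ i, db k x y i ^ 2

/-- the mass of the partner -/
theorem tr_sl (w : ℤ → ℤ → ι ⊕ ι → ℝ) (k a : ℕ) (n m : ℤ) :
    (Py (sl k m w) a n).trace = av a n fun y => av k m fun x => ∑ i, w x y i ^ 2 := by
  rw [tr_Py_eq]
  exact congrArg _ (funext fun y => sl_sq _ _ _ _)

/-- the middle step of the partner, arbitrary changes -/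
theorem SG_mid_P {k : ℕ} {w w' d : ℤ → ℤ → ι ⊕ ι → ℝ} (hT : Chg k w w' d) {μ : ℝ} (hμ : 0 < μ)
    (J a : ℕ) (n m : ℤ) :
    SG μ J (Py (sl (k + 1) m w') a n) + (1 / 2) * SCr k μ J (Py (sl (k + 1) m w') a n)
      ≤ (1 / 2) * (SG μ J (Py (sl k (2 * m) w) a n) + SG μ J (Py (sl k (2 * m + 1) w) a n))
        + ((J : ℝ) + 1) * av a n fun y => av (k + 1) m fun x => ∑ i, d x y i ^ 2 := by
  have h1 := SG_middle hμ J k m w' a n
  have key : ∀ m', SG μ J (Py (sl k m' w') a n) ≤ SG μ J (Py (sl k m' w) a n)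
        + ((J : ℝ) + 1) * av a n fun y => av k m' fun x => ∑ i, d x y i ^ 2 := by
    intro m'
    have g := gram_chg0 hT a n m'
    have g1 := H435.SG_mono (Py_PSD (sl k m' w') a n) g hμ J
    rw [add_sub_cancel] at g1
    have g2 := H435.SG_add_le (Py_PSD (sl k m' w) a n) (Py_PSD (sl k m' d) a n) hμ J
    rw [tr_sl] at g2
    exact g1.trans g2
  have k0 := key (2 * m)
  have k1 := key (2 * m + 1)
  have e : (av a n fun y => av (k + 1) m fun x => ∑ i, d x y i ^ 2)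
      = (1 / 2) * ((av a n fun y => av k (2 * m) fun x => ∑ i, d x y i ^ 2)
        + av a n fun y => av k (2 * m + 1) fun x => ∑ i, d x y i ^ 2) := by
    rw [← av_add, ← av_mul]
    exact congrArg _ (funext fun y => av_half _ _ _)
  rw [e]
  linarith

/-- **The partner without a move is a `Stk`**, all levels, arbitrary changes, no cap. -/
theorem stk_P {k₀ N : ℕ} (hkN : k₀ ≤ N) {Y S : ℤ} {μ : ℝ} (hμ : 0 < μ) (J : ℕ)
    (hT : ∀ k, k₀ ≤ k → k < N → Chg k (b k) (b (k + 1)) (db k)) {H Qm : ℝ}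
    (hH : ∀ k, k₀ ≤ k → k ≤ N → ∑ x ∈ iv N S, ∑ y ∈ iv N Y, ∑ i, b k x y i ^ 2 ≤ H)
    (hQm : ∑ k ∈ Ico k₀ N, ∑ x ∈ iv N S, ∑ y ∈ iv N Y, ∑ i, db k x y i ^ 2 ≤ Qm) :
    Stk k₀ N Y S μ J (PB b) (fun k a n m => PB b k a (2 * n) m)
      (fun k a n m => PB b k a (2 * n + 1) m) (fun _ _ _ _ => 0) (fun _ _ _ _ => 0)
      (fun _ _ _ _ => 0) (pP J db) (fun k a n m => (1 / 2) * SCr k μ J (PB b (k + 1) a n m))
      H 0 (((J : ℝ) + 1) * Qm) where
  hkN := hkN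
  hμ := hμ
  psd k a n m := Py_PSD _ _ _
  psd0 k a n m := Py_PSD _ _ _
  psd1 k a n m := Py_PSD _ _ _
  nγ k a n m := mul_nonneg (by norm_num) (SCr_nonneg hμ J k (Py_PSD _ _ _))
  par k a n m _ _ _ := Py_out _ _ _
  ch0 k a n m _ _ _ := by
    unfold mv
    rw [add_zero, transpose_one, Matrix.one_mul, Matrix.mul_one]
  ch1 k a n m _ _ _ := by
    unfold mv
    rw [add_zero, transpose_one, Matrix.one_mul, Matrix.mul_one]
  out k a n m _ _ _ := by
    have h := SG_outer0 (Py_PSD (sl k m (b k)) a (2 * n)) (Py_PSD (sl k m (b k)) a (2 * n + 1))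
      hμ J
    have hd : 0 ≤ SD μ J (Py (sl k m (b k)) a (2 * n)) (Py (sl k m (b k)) a (2 * n + 1)) :=
      H336.SD_nonneg (Py_PSD _ _ _) (Py_PSD _ _ _) hμ J
    rw [← Py_out] at h
    unfold PB
    linarith
  lip k a n m _ _ _ := by
    simp
  mid k a n m h1 h2 h3 := SG_mid_P (hT k h1 (by omega)) hμ J a n m
  hH k a h1 h2 h3 := by
    unfold PB
    simp only [tr_sl]
    rw [bs_av (h2.trans h3) h3]
    exact hH k h1 (h2.trans h3)
  hQo l := by
    simp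
  hQm l := by
    have h1 : ∀ k ∈ Ico k₀ (N - l), (2 : ℝ) ^ (k + 1 + l) * 2 ^ (k + 1)
        * ∑ m ∈ iv (N - (k + 1)) S, ∑ n ∈ iv (N - (k + 1 + l)) Y, pP J db k (k + 1 + l) n m
        = ((J : ℝ) + 1) * ∑ x ∈ iv N S, ∑ y ∈ iv N Y, ∑ i, db k x y i ^ 2 := by
      intro k hk
      rw [mem_Ico] at hk
      unfold pP
      rw [← bs_av (show k + 1 ≤ N by omega) (show k + 1 + l ≤ N by omega)]
      simp only [← mul_sum]
      ring
    rw [sum_congr rfl h1, ← mul_sum]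
    refine mul_le_mul_of_nonneg_left (le_trans ?_ hQm) (by positivity)
    refine sum_le_sum_of_subset_of_nonneg (Ico_subset_Ico_right (Nat.sub_le _ _)) fun k _ _ => ?_
    exact sum_nonneg fun x _ => sum_nonneg fun y _ => sum_nonneg fun i _ => sq_nonneg _

variable {r : ℝ} {R D : ℕ → ℤ → ℤ → Matrix ι ι ℝ} {c dc : ℕ → ℤ → ℤ → ι → ℝ}

theorem bD_sum {N k₀ : ℕ} {S Y : ℤ} :
    ∑ k ∈ Ico k₀ N, (4 : ℝ) ^ (k + 1) * ∑ m ∈ iv (N - (k + 1)) S,
      ∑ n ∈ iv (N - (k + 1)) Y, mh (fun h => (Py (sl k h (db k)) (k + 1) n).trace) m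
      = ∑ k ∈ Ico k₀ N, ∑ x ∈ iv N S, ∑ y ∈ iv N Y, ∑ i, db k x y i ^ 2 := by
  refine Finset.sum_congr rfl fun k hk => ?_
  have hk := mem_Ico.1 hk
  rw [mh_sum hk.2 Y S (fun n h => (Py (sl k h (db k)) (k + 1) n).trace)]
  simp only [tr_sl]
  exact bs_av hk.2.le (show k + 1 ≤ N by omega) Y S _

/-- **The pair (B, C~), hub x1, both slots saturated, final form.** -/
theorem pair_sat {k₀ N : ℕ} (hkN : k₀ ≤ N) {Y S T : ℤ} {cc : ℕ → ℤ} (hcc : H588.Pl cc)
    {μ : ℝ} (hμ : 0 < μ) {J j : ℕ} (hj : j ≤ J) {s : ℝ} (hs : s = (μ / 4 ^ j)⁻¹)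
    {h₀ : ℝ} (hh : 0 < h₀) (hr : r ≠ 0)
    (hM : ∀ a, k₀ ≤ a → a < N → Mvo (R a) (R (a + 1)) (D (a + 1)))
    (hTc : ∀ k, k₀ ≤ k → k < N → Chg k (c k) (c (k + 1)) (dc k))
    (hTb : ∀ k, k₀ ≤ k → k < N → Chg k (b k) (b (k + 1)) (db k))
    (hb : ∀ k x y, b k x y = Sum.elim (0 : ι → ℝ) (fun i => b k x y (Sum.inr i)))
    {κ : ℝ} (hκ : ∀ k a x y, k₀ ≤ k → k ≤ a → a < N →
      es r (R (a + 1)) (a + 1) (c k) x y ≤ κ) (hκμ : μ / 4 ^ J * κ ≤ 1)
    {H Qo Qm : ℝ}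
    (hH : ∀ k a, k₀ ≤ k → k ≤ a → a ≤ N →
      ∑ x ∈ iv N S, ∑ y ∈ iv N T, es r (R a) a (c k) x y ≤ H)
    (hQo : ∀ l, ∑ k ∈ Ico k₀ (N - l), ∑ x ∈ iv N S, ∑ y ∈ iv N T,
      em r (R (k + l + 1)) (D (k + l + 1)) (k + l + 1) (c k) x y ≤ Qo)
    (hQm : ∀ l, ∑ k ∈ Ico k₀ (N - l), ∑ x ∈ iv N S, ∑ y ∈ iv N T,
      es r (R (k + 1 + l)) (k + 1 + l) (dc k) x y ≤ Qm)
    {HB QB ZB : ℝ}
    (hHB : ∀ k, k₀ ≤ k → k ≤ N → ∑ x ∈ iv N S, ∑ y ∈ iv N Y, ∑ i, b k x y i ^ 2 ≤ HB)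
    (hQB : ∑ k ∈ Ico k₀ N, ∑ x ∈ iv N S, ∑ y ∈ iv N Y, ∑ i, db k x y i ^ 2 ≤ QB)
    (hZB : ∑ k ∈ Ico k₀ N, GW N Y S T (k + 1) (cc (k + 1)) (fun n n' m =>
      av (k + 1) n fun y => av (k + 1) m fun x =>
        ∑ i, ((D (k + 1) x n')ᵀ *ᵥ fun i => b k x y (Sum.inr i)) i ^ 2) ≤ ZB) (nZB : 0 ≤ ZB) :
    ∑ k ∈ Ico k₀ N, GW N Y S T (k + 1) (cc (k + 1)) (fun n n' m =>
      (phs h₀ (PB b (k + 1) (k + 1) n m) * (rr k (ι ⊕ ι)
        * phs s (WO r R (c (k + 1)) (k + 1) (k + 1) n' m) * rr k (ι ⊕ ι))).trace)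
      ≤ 2 * (√(1300 * h₀ * (HB + QB) * (1300 * s * (((J : ℝ) + 1) * H
            + 258 * ((J : ℝ) + 1) ^ 3 * Qo + ((J : ℝ) + 1) * Qm)))
        + (21 * (s * (HB + QB)) + 32 * (h₀ * (((J : ℝ) + 1) * H
            + 258 * ((J : ℝ) + 1) ^ 3 * Qo + ((J : ℝ) + 1) * Qm)))
        + 7 * √(h₀ * s * (((J : ℝ) + 1) * H + 258 * ((J : ℝ) + 1) ^ 3 * Qo
            + ((J : ℝ) + 1) * Qm) * ((r ^ 2)⁻¹ * ZB))) := by
  have s0 : 0 < s := by rw [hs]; positivity
  have hμ0 : 0 < h₀⁻¹ := inv_pos.2 hh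
  have st := stk_G hkN hμ J hr hM hTc hκ hκμ hH hQo hQm
  have sb := stk_P (Y := Y) (S := S) hkN hμ0 0 hTb hHB hQB
  have sp := spair_sat (r := r) (R := R) (D := D) s0 hh hr hM hTc hTb
  have hh0 : h₀ = (h₀⁻¹ / 4 ^ 0)⁻¹ := by rw [pow_zero, div_one, inv_inv]
  have hQo0 := st.Qo_nonneg
  have hQo1 : 0 ≤ Qo := by
    have := hQo N
    rwa [Nat.sub_self, Ico_eq_empty (by omega), sum_empty] at this
  have hQm0 : 0 ≤ Qm := by
    have := hQm N
    rwa [Nat.sub_self, Ico_eq_empty (by omega), sum_empty] at this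
  have hH0 := st.H_nonneg
  have hHB0 := sb.H_nonneg
  have hQB0 : 0 ≤ QB := (sum_nonneg fun k _ => sum_nonneg fun x _ => sum_nonneg fun y _ =>
    sum_nonneg fun i _ => sq_nonneg _).trans hQB
  have hJ : (0 : ℝ) ≤ J := Nat.cast_nonneg J
  have gg := stk_gp (r := fun k => rr k (ι ⊕ ι)) st s0 (by
    intro k _ _ n m
    exact gp_SCr hμ hj hs k (WO_psd r R (c (k + 1)) (k + 1) (k + 1) n m))
  have gb := stk_gp (r := fun k => rr k (ι ⊕ ι)) sb hh (by
    intro k _ _ n m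
    exact gp_SCr hμ0 le_rfl hh0 k (Py_PSD (sl (k + 1) m (b (k + 1))) (k + 1) n))
  have db' := stk_dls sb le_rfl hh0
  have vb := sb.TV_stack le_rfl
  rw [← hh0] at vb
  have eb : ((0 : ℕ) : ℝ) + 1 = 1 := by norm_num
  rw [eb, one_mul, one_mul, add_zero] at gb db' vb
  set O : ℝ := ((J : ℝ) + 1) * H + 258 * ((J : ℝ) + 1) ^ 3 * Qo + ((J : ℝ) + 1) * Qm with hO
  set OB : ℝ := HB + QB with hOB
  have n1 : 0 ≤ ((J : ℝ) + 1) * H := by positivity
  have n2 : 0 ≤ 258 * ((J : ℝ) + 1) ^ 3 * Qo := by positivity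
  have n3 : Qm ≤ ((J : ℝ) + 1) * Qm := by nlinarith
  have nO : 0 ≤ O := by linarith
  have nOB : 0 ≤ OB := by linarith
  -- middle losses
  have hY : ∑ k ∈ Ico k₀ N, GW N Y S T (k + 1) (cc (k + 1)) (fun n n' m =>
      8 * (s * h₀⁻¹) * gp h₀ (rr k (ι ⊕ ι)) (PB b (k + 1) (k + 1) n m)
          + 8 * (h₀ * s⁻¹) * gp s (rr k (ι ⊕ ι)) (WO r R (c (k + 1)) (k + 1) (k + 1) n' m)
          + h₀ * mh (fun h => bC r R dc k n' h) m
          + s * mh (fun h => (Py (sl k h (db k)) (k + 1) n).trace) m)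
      ≤ 17 * (s * OB) + 17 * (h₀ * O) := by
    have e : ∀ k, GW N Y S T (k + 1) (cc (k + 1)) (fun n n' m =>
        8 * (s * h₀⁻¹) * gp h₀ (rr k (ι ⊕ ι)) (PB b (k + 1) (k + 1) n m)
          + 8 * (h₀ * s⁻¹) * gp s (rr k (ι ⊕ ι)) (WO r R (c (k + 1)) (k + 1) (k + 1) n' m)
          + h₀ * mh (fun h => bC r R dc k n' h) m
          + s * mh (fun h => (Py (sl k h (db k)) (k + 1) n).trace) m)
        = 8 * (s * h₀⁻¹) * GW N Y S T (k + 1) (cc (k + 1)) (fun n _ m =>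
            gp h₀ (rr k (ι ⊕ ι)) (PB b (k + 1) (k + 1) n m))
          + 8 * (h₀ * s⁻¹) * GW N Y S T (k + 1) (cc (k + 1)) (fun _ n' m =>
            gp s (rr k (ι ⊕ ι)) (WO r R (c (k + 1)) (k + 1) (k + 1) n' m))
          + h₀ * GW N Y S T (k + 1) (cc (k + 1)) (fun _ n' m =>
            mh (fun h => bC r R dc k n' h) m)
          + s * GW N Y S T (k + 1) (cc (k + 1)) (fun n _ m =>
            mh (fun h => (Py (sl k h (db k)) (k + 1) n).trace) m) := by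
      intro k
      rw [← GW_mul, ← GW_mul, ← GW_mul, ← GW_mul, ← GW_add, ← GW_add, ← GW_add]
    simp only [e, Finset.sum_add_distrib, ← Finset.mul_sum]
    have g0 : ∑ k ∈ Ico k₀ N, GW N Y S T (k + 1) (cc (k + 1)) (fun n _ m =>
        gp h₀ (rr k (ι ⊕ ι)) (PB b (k + 1) (k + 1) n m)) ≤ 2 * h₀ * OB :=
      (Finset.sum_le_sum fun k _ => GW_le_fst N Y S T (k + 1) (cc (k + 1))
        (f := fun n m => gp h₀ (rr k (ι ⊕ ι)) (PB b (k + 1) (k + 1) n m))
        (fun n m => gp_nonneg hh (Py_PSD _ _ _) (rr_symm k))).trans gb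
    have g1 : ∑ k ∈ Ico k₀ N, GW N Y S T (k + 1) (cc (k + 1)) (fun _ n' m =>
        gp s (rr k (ι ⊕ ι)) (WO r R (c (k + 1)) (k + 1) (k + 1) n' m)) ≤ 2 * s * O :=
      (Finset.sum_le_sum fun k _ => GW_le_one N Y S T (k + 1) (cc (k + 1))
        (f := fun n' m => gp s (rr k (ι ⊕ ι)) (WO r R (c (k + 1)) (k + 1) (k + 1) n' m))
        (fun n m => gp_nonneg s0 (WO_psd _ _ _ _ _ _ _) (rr_symm k))).trans gg
    have g2 : ∑ k ∈ Ico k₀ N, GW N Y S T (k + 1) (cc (k + 1)) (fun _ n' m =>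
        mh (fun h => bC r R dc k n' h) m) ≤ Qm := by
      refine (Finset.sum_le_sum fun k _ => GW_le_one N Y S T (k + 1) (cc (k + 1))
        (f := fun n' m => mh (fun h => bC r R dc k n' h) m)
        (fun n m => mh_nonneg (fun h => bC_nonneg k n h) m)).trans ?_
      rw [bC_sum]
      have h0 := hQm 0
      simpa only [Nat.sub_zero, add_zero] using h0
    have g3 : ∑ k ∈ Ico k₀ N, GW N Y S T (k + 1) (cc (k + 1)) (fun n _ m =>
        mh (fun h => (Py (sl k h (db k)) (k + 1) n).trace) m) ≤ QB := by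
      refine (Finset.sum_le_sum fun k _ => GW_le_fst N Y S T (k + 1) (cc (k + 1))
        (f := fun n m => mh (fun h => (Py (sl k h (db k)) (k + 1) n).trace) m)
        (fun n m => mh_nonneg (fun h => (Py_PSD _ _ _).trace_nonneg) m)).trans ?_
      rw [bD_sum]
      exact hQB
    have hs' : 0 < s⁻¹ := inv_pos.2 s0
    have f0 := mul_le_mul_of_nonneg_left g0 (show 0 ≤ 8 * (s * h₀⁻¹) by positivity)
    have f1 := mul_le_mul_of_nonneg_left g1 (show 0 ≤ 8 * (h₀ * s⁻¹) by positivity)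
    have f2 := mul_le_mul_of_nonneg_left g2 hh.le
    have f3 := mul_le_mul_of_nonneg_left g3 s0.le
    have e0 : 8 * (s * h₀⁻¹) * (2 * h₀ * OB) = 16 * (s * OB) := by
      field_simp
      ring
    have e1 : 8 * (h₀ * s⁻¹) * (2 * s * O) = 16 * (h₀ * O) := by
      field_simp
      ring
    have f4 : h₀ * Qm ≤ h₀ * O := mul_le_mul_of_nonneg_left (by linarith) hh.le
    have f5 : s * QB ≤ s * OB := mul_le_mul_of_nonneg_left (by linarith) s0.le
    linarith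
  have hZ : ∑ k ∈ Ico k₀ N, GW N Y S T (k + 1) (cc (k + 1)) (fun n n' m =>
      mh (fun h => ((Nm r D k k n' h)ᵀ * phs h₀ (PB b k (k + 1) n h) * Nm r D k k n' h).trace) m)
      ≤ (r ^ 2)⁻¹ * ZB := by
    have e0 : ∀ k, GW N Y S T (k + 1) (cc (k + 1)) (fun n n' m =>
        mh (fun h => ((Nm r D k k n' h)ᵀ * phs h₀ (PB b k (k + 1) n h)
          * Nm r D k k n' h).trace) m)
        ≤ GW N Y S T (k + 1) (cc (k + 1)) (fun n n' m =>
        mh (fun h => ((Nm r D k k n' h)ᵀ * PB b k (k + 1) n h * Nm r D k k n' h).trace) m) := by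
      intro k
      refine GW_mono fun n _ n' _ m _ => ?_
      have h1 : ∀ h : ℤ, ((Nm r D k k n' h)ᵀ * phs h₀ (PB b k (k + 1) n h)
          * Nm r D k k n' h).trace
          ≤ ((Nm r D k k n' h)ᵀ * PB b k (k + 1) n h * Nm r D k k n' h).trace := by
        intro h
        have p := phs_le hh (Py_PSD (sl k h (b k)) (k + 1) n)
        have p2 := (p.conjTranspose_mul_mul_same (Nm r D k k n' h)).trace_nonneg
        rw [conjTranspose_eq_transpose_of_trivial, Matrix.mul_sub, Matrix.sub_mul,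
          trace_sub] at p2
        unfold PB
        linarith
      unfold mh
      have a0 := h1 (2 * m)
      have a1 := h1 (2 * m + 1)
      linarith
    have e : ∀ k, GW N Y S T (k + 1) (cc (k + 1)) (fun n n' m =>
        mh (fun h => ((Nm r D k k n' h)ᵀ * PB b k (k + 1) n h * Nm r D k k n' h).trace) m)
        = (r ^ 2)⁻¹ * GW N Y S T (k + 1) (cc (k + 1)) (fun n n' m =>
          av (k + 1) n fun y => av (k + 1) m fun x =>
            ∑ i, ((D (k + 1) x n')ᵀ *ᵥ fun i => b k x y (Sum.inr i)) i ^ 2) := by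
      intro k
      rw [← GW_mul]
      refine congrArg _ (funext fun n => funext fun n' => funext fun m => ?_)
      unfold mh
      beta_reduce
      rw [Nm_br hb, Nm_br hb]
      have e4 : (av (k + 1) n fun y => av (k + 1) m fun x =>
          ∑ i, ((D (k + 1) x n')ᵀ *ᵥ fun i => b k x y (Sum.inr i)) i ^ 2)
          = (1 / 2) * ((av (k + 1) n fun y => av k (2 * m) fun x =>
              ∑ i, ((D (k + 1) x n')ᵀ *ᵥ fun i => b k x y (Sum.inr i)) i ^ 2)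
            + av (k + 1) n fun y => av k (2 * m + 1) fun x =>
              ∑ i, ((D (k + 1) x n')ᵀ *ᵥ fun i => b k x y (Sum.inr i)) i ^ 2) := by
        rw [← av_add, ← av_mul]
        exact congrArg _ (funext fun y => av_half _ _ _)
      rw [e4]
      ring
    refine (Finset.sum_le_sum fun k _ => e0 k).trans ?_
    simp only [e, ← Finset.mul_sum]
    exact mul_le_mul_of_nonneg_left hZB (by positivity)
  have hX : ∑ k ∈ Ico k₀ N, GW N Y S T (k + 1) (cc (k + 1)) (fun n n' m =>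
      mh (fun h => s * h₀⁻¹ * dls h₀ (PB b k k (2 * n) h) (PB b k k (2 * n + 1) h)) m)
      ≤ 4 * (s * OB) := by
    have e : ∀ k, GW N Y S T (k + 1) (cc (k + 1)) (fun n n' m =>
        mh (fun h => s * h₀⁻¹ * dls h₀ (PB b k k (2 * n) h) (PB b k k (2 * n + 1) h)) m)
        = s * h₀⁻¹ * GW N Y S T (k + 1) (cc (k + 1)) (fun n _ m =>
        mh (fun h => dls h₀ (PB b k k (2 * n) h) (PB b k k (2 * n + 1) h)) m) := by
      intro k
      rw [← GW_mul]
      refine congrArg _ (funext fun n => funext fun n' => funext fun m => ?_)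
      unfold mh
      ring
    simp only [e, ← Finset.mul_sum]
    have g4 : ∑ k ∈ Ico k₀ N, GW N Y S T (k + 1) (cc (k + 1)) (fun n _ m =>
        mh (fun h => dls h₀ (PB b k k (2 * n) h) (PB b k k (2 * n + 1) h)) m)
        ≤ 4 * h₀ * OB :=
      (Finset.sum_le_sum fun k _ => GW_le_fst N Y S T (k + 1) (cc (k + 1))
        (f := fun n m => mh (fun h => dls h₀ (PB b k k (2 * n) h) (PB b k k (2 * n + 1) h)) m)
        (fun n m => mh_nonneg (fun h => dls_nonneg hh (Py_PSD _ _ _) (Py_PSD _ _ _)) m)).trans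
        db'
    have f := mul_le_mul_of_nonneg_left g4 (show 0 ≤ s * h₀⁻¹ by positivity)
    have e5 : s * h₀⁻¹ * (4 * h₀ * OB) = 4 * (s * OB) := by
      field_simp
    linarith
  have key := fin sp st hj hs (fun _ _ _ => rfl) (fun _ _ _ => rfl)
    (fun k _ _ n m => mv_q hr k n m) hh.le hcc (by positivity : 0 ≤ (r ^ 2)⁻¹ * ZB) vb hY hZ hX
  simp only [GW_mul, ← Finset.mul_sum] at key
  rw [← hO] at key
  linarith

end node

end

end Vale.Agent.P141.H973.PairSat
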