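import Vale.Agent.P141.H213.RowX
import Vale.Agent.P141.H609.RPW
import Vale.Agent.P141.H677.FDb
import Vale.Agent.P141.H401.CutUV

/-!
# P141, line (A): rows of the slots `b`, `C` on the shifted grids at time `k + 1`

`row_b`, `row_C` : from `FDs` and the fibres, cells of `x₀` of scale `k`, standard cells of scale
`k`; `row_sft` : any shift, cells of scale `k + 1`; `rowB`, `rowC` : the slots `H747.shB`, `shC`;
`rt_B`, `rt_C` : the same in the letters `H433.rt`, `H609.RPW.eb`, `ec`.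
-/

set_option linter.unusedSectionVars false

namespace Vale.Agent.P141.H973.RowPM

open Finset Matrix
open Vale.Agent.P141.PL (Pt iv ix mem_iv ix_ix)
open Vale.Agent.P141.PL.H315 (Tri)
open Vale.Agent.P141.H677 (kF)
open Vale.Agent.P141.H48 (BSl sst)
open Vale.Agent.P141.H677.Sk (FDs lam1 FamA FamV)
open Vale.Agent.P141.H401 (FibU FibP)
open Vale.Agent.P141.H958 (lbs)
open Vale.Agent.P141.H609.RPW (eb ec rt_eb rt_ec)
open Vale.Agent.P141.H747 (sft shB shC)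

noncomputable section

open scoped Classical

/-! ### Shifted cells -/

theorem ix_mono' {i : ℕ} {a b : ℤ} (h : a ≤ b) : ix i a ≤ ix i b :=
  Int.ediv_le_ediv (by positivity) h

theorem ix_add' (i : ℕ) (a m : ℤ) : ix i (a + 2 ^ i * m) = ix i a + m := by
  unfold ix
  exact Int.add_mul_ediv_left _ _ (by positivity)

/-- a shifted cell of scale `k + 1` is covered by three cells of scale `k` -/
theorem cover {k : ℕ} {F : ℤ → ℝ} {B : ℝ} (hF : ∀ y, 0 ≤ F y)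
    (h : ∀ m, ∑ y ∈ iv k m, F y ≤ B) (n b : ℤ) : ∑ y ∈ iv (k + 1) n, F (y + b) ≤ 3 * B := by
  set c := ix k (2 ^ (k + 1) * n + b) with hc
  have hmap : ∀ y ∈ iv (k + 1) n, ix k (y + b) ∈ Icc c (c + 2) := by
    intro y hy
    rw [mem_iv] at hy
    have h1 : 2 ^ (k + 1) * n ≤ y := by
      rw [← hy]
      exact Int.mul_ediv_self_le (by positivity)
    have h2 : y ≤ 2 ^ (k + 1) * n + 2 ^ (k + 1) := by
      rw [← hy]
      exact (Int.lt_mul_ediv_self_add (by positivity)).le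
    rw [mem_Icc]
    constructor
    · exact ix_mono' (by linarith)
    · rw [hc, ← ix_add']
      refine ix_mono' ?_
      have : (2 : ℤ) ^ (k + 1) = 2 ^ k * 2 := pow_succ _ _
      linarith
  rw [← sum_fiberwise_of_maps_to hmap]
  refine (sum_le_sum (g := fun _ => B) fun m _ => ?_).trans ?_
  · refine le_trans ?_ (h m)
    have e : ∑ y ∈ (iv (k + 1) n).filter (fun y => ix k (y + b) = m), F (y + b) =
        ∑ y ∈ ((iv (k + 1) n).filter (fun y => ix k (y + b) = m)).image (fun y => y + b), F y :=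
      (sum_image fun a _ b' _ hab => by simpa using hab).symm
    rw [e]
    refine sum_le_sum_of_subset_of_nonneg (fun y hy => ?_) fun y _ _ => hF y
    obtain ⟨y', hy', rfl⟩ := mem_image.1 hy
    rw [mem_iv]
    exact (mem_filter.1 hy').2
  · rw [sum_const, Int.card_Icc, nsmul_eq_mul]
    have : (c + 2 + 1 - c).toNat = 3 := by
      rw [show c + 2 + 1 - c = 3 by ring]
      rfl
    rw [this]
    norm_num

section rows

variable {κ : Type*} [Fintype κ]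

theorem dp0 (w : κ → ℝ) : 0 ≤ w ⬝ᵥ w := sum_nonneg fun i _ => mul_self_nonneg (w i)

/-- **Rows on the shifted grid**, at one row point. -/
theorem row_sft {K k : ℕ} (hk : k ≤ K) {S T : ℤ} {X : Finset ℤ} {f : ℤ → ℤ → ℤ → κ → ℝ} {B : ℝ}
    (hB : 0 ≤ B) (h : ∀ m ∈ iv (K - k) T, ∀ p ∈ iv K S,
      ∑ x0 ∈ X, ∑ y ∈ iv k m, f x0 p y ⬝ᵥ f x0 p y ≤ B) (a b n x : ℤ) :
    ∑ x0 ∈ X, ∑ y ∈ iv (k + 1) n, sft K S T a b (f x0) x y ⬝ᵥ sft K S T a b (f x0) x y ≤
      3 * B := by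
  by_cases hx : ix K (x + a) = S
  · rw [sum_comm]
    have e : ∀ y : ℤ, ∑ x0 ∈ X, sft K S T a b (f x0) x y ⬝ᵥ sft K S T a b (f x0) x y =
        (fun y' => if ix K y' = T then ∑ x0 ∈ X, f x0 (x + a) y' ⬝ᵥ f x0 (x + a) y' else 0)
          (y + b) := by
      intro y
      unfold sft
      simp only [hx, true_and]
      split_ifs with h1
      · rfl
      · simp
    simp only [e]
    refine cover (F := fun y' => if ix K y' = T then
      ∑ x0 ∈ X, f x0 (x + a) y' ⬝ᵥ f x0 (x + a) y' else 0) (fun y => ?_) (fun m => ?_) n b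
    · split_ifs
      · exact sum_nonneg fun _ _ => dp0 _
      · exact le_rfl
    · by_cases hm : m ∈ iv (K - k) T
      · refine le_trans (le_of_eq ?_) (h m hm (x + a) (mem_iv.2 hx))
        rw [sum_comm]
        refine sum_congr rfl fun y hy => ?_
        rw [if_pos]
        rw [mem_iv] at hy hm
        rw [← hy, ix_ix, Nat.add_sub_cancel' hk] at hm
        exact hm
      · refine le_trans (le_of_eq ?_) hB
        refine sum_eq_zero fun y hy => ?_
        rw [if_neg]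
        intro h1
        apply hm
        rw [mem_iv] at hy ⊢
        rw [← hy, ix_ix, Nat.add_sub_cancel' hk]
        exact h1
  · refine le_trans (le_of_eq ?_) (by positivity : (0 : ℝ) ≤ 3 * B)
    refine sum_eq_zero fun x0 _ => sum_eq_zero fun y _ => ?_
    unfold sft
    rw [if_neg (fun h => hx h.1)]
    simp

end rows

/-! ### The slots of `FDs` -/

section slots

variable {ι : Type} [Fintype ι] [DecidableEq ι] {q : H401.Num} {n : ℕ} {ez : ℝ}
  {F1 F2 F3 : ℕ → Pt → ℝ} {K : ℕ} {x : Pt} {s r : ℝ} {U : Tri} {g : ℤ → ℤ → ℝ}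
  {u v : ℤ → ℤ → ι → ℝ} {A : FamA} {b C : FamV ι} {Q1 Q2 Q3 : ℕ → Pt → Prop}
  {v' : ℤ → ℤ → ι → ℝ}

/-- rows of `b`, standard cells -/
theorem row_b (h : FDs q n ez F1 F2 F3 K x s r U g u v A b C Q1 Q2 Q3 v') (hK : K ≤ n)
    (he : 0 ≤ q.e) (hl : 0 ≤ lam1 q s r) (hf : FibU q K x s r U u) {k : ℕ} (hk : k < K) (a : ℤ) :
    ∀ m ∈ iv (K - k) (ix K x.2.1), ∀ p ∈ iv K (ix K x.1),
      ∑ x0 ∈ iv k a, ∑ y ∈ iv k m, b x0 (k + 1) p y ⬝ᵥ b x0 (k + 1) p y ≤
        4 ^ k * (2 * q.e * lam1 q s r) := by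
  intro m hm p hp
  have h1 := H213.rowX_base (S := ix K x.1) (T := ix K x.2.1) (T0 := ix (K - k) a) h.B3 he hl hK
    hf k hk a (mem_iv.2 rfl) m hm p hp
  refine (sum_le_sum fun x0 _ => ?_).trans h1
  have h2 : ∀ i : ι, ∑ y ∈ iv k m, b x0 (k + 1) p y i ^ 2 ≤
      ∑ y ∈ iv k m, H401.mb q U K u F3 x0 (k + 1) p y i ^ 2 := by
    intro i
    have h3 := h.rowb k hk.le (k + 1) (Or.inr ⟨rfl, hk⟩) x0 p m (Pi.single i 1)
    simpa only [dotProduct_single, mul_one] using h3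
  have h4 : ∀ w : ℤ → ι → ℝ, ∑ y ∈ iv k m, w y ⬝ᵥ w y = ∑ i, ∑ y ∈ iv k m, w y i ^ 2 := by
    intro w
    rw [sum_comm]
    exact sum_congr rfl fun y _ => sum_congr rfl fun i _ => (sq _).symm
  rw [h4, h4 fun y => kF q.Lm U.1 K F3 (k + 1) (x0, p, y) • u p y]
  exact sum_le_sum fun i _ => h2 i

/-- rows of `C`, standard cells -/
theorem row_C (h : FDs q n ez F1 F2 F3 K x s r U g u v A b C Q1 Q2 Q3 v') (hK : K ≤ n)
    (hez : 0 ≤ ez) (hl : 0 ≤ lam1 q s r) {k : ℕ} (hk : k < K) (a : ℤ) :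
    ∀ m ∈ iv (K - k) (ix K x.2.2), ∀ p ∈ iv K (ix K x.1),
      ∑ x0 ∈ iv k a, ∑ z ∈ iv k m, C x0 (k + 1) z p ⬝ᵥ C x0 (k + 1) z p ≤
        4 ^ k * (2 * ez * lam1 q s r) := by
  intro m hm p hp
  have h1 := H213.rowX_base (S := ix K x.1) (T := ix K x.2.2) (T0 := ix (K - k) a) h.B2 hez hl hK
    h.fib k hk a (mem_iv.2 rfl) m hm p hp
  simp only [h.C_eq]
  exact h1

/-- **Rows of the slot `b` on any grid.** -/
theorem rowB (h : FDs q n ez F1 F2 F3 K x s r U g u v A b C Q1 Q2 Q3 v') (hK : K ≤ n)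
    (he : 0 ≤ q.e) (hl : 0 ≤ lam1 q s r) (hf : FibU q K x s r U u) {M : Pt}
    (hM1 : M.1 = ix K x.1) (hM2 : M.2.1 = ix K x.2.1) (w : Pt) {k : ℕ} (hk : k < K)
    (a m p : ℤ) :
    ∑ x0 ∈ iv k a, ((2 : ℝ) ^ (k + 1))⁻¹ * ∑ y ∈ iv (k + 1) m,
      shB K M w (b x0) (k + 1) p y ⬝ᵥ shB K M w (b x0) (k + 1) p y ≤
      3 * q.e * lam1 q s r * 2 ^ k := by
  rw [← mul_sum]
  have h1 := row_sft (S := M.1) (T := M.2.1) (f := fun x0 => b x0 (k + 1)) (X := iv k a) hk.le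
    (B := 4 ^ k * (2 * q.e * lam1 q s r)) (by positivity)
    (by rw [hM1, hM2]; exact row_b h hK he hl hf hk a) w.1 w.2.1 m p
  unfold shB
  refine (mul_le_mul_of_nonneg_left h1 (by positivity)).trans (le_of_eq ?_)
  have e4 : (4 : ℝ) ^ k = 2 ^ k * 2 ^ k := by
    rw [← mul_pow]
    norm_num
  rw [e4, pow_succ]
  field_simp

/-- **Rows of the slot `C` on any grid.** -/
theorem rowC (h : FDs q n ez F1 F2 F3 K x s r U g u v A b C Q1 Q2 Q3 v') (hK : K ≤ n)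
    (hez : 0 ≤ ez) (hl : 0 ≤ lam1 q s r) {M : Pt} (hM1 : M.1 = ix K x.1)
    (hM3 : M.2.2 = ix K x.2.2) (w : Pt) {k : ℕ} (hk : k < K) (a m p : ℤ) :
    ∑ x0 ∈ iv k a, ((2 : ℝ) ^ (k + 1))⁻¹ * ∑ z ∈ iv (k + 1) m,
      shC K M w (C x0) (k + 1) z p ⬝ᵥ shC K M w (C x0) (k + 1) z p ≤
      3 * ez * lam1 q s r * 2 ^ k := by
  rw [← mul_sum]
  have h1 := row_sft (S := M.1) (T := M.2.2) (f := fun x0 p z => C x0 (k + 1) z p) (X := iv k a)
    hk.le (B := 4 ^ k * (2 * ez * lam1 q s r)) (by positivity)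
    (by rw [hM1, hM3]; exact row_C h hK hez hl hk a) w.1 w.2.2 m p
  have e : ∀ x0 z, shC K M w (C x0) (k + 1) z p =
      sft K M.1 M.2.2 w.1 w.2.2 (fun p z => C x0 (k + 1) z p) p z := by
    intro x0 z
    unfold shC sft
    simp only [and_comm]
  simp only [e]
  refine (mul_le_mul_of_nonneg_left h1 (by positivity)).trans (le_of_eq ?_)
  have e4 : (4 : ℝ) ^ k = 2 ^ k * 2 ^ k := by
    rw [← mul_pow]
    norm_num
  rw [e4, pow_succ]
  field_simp

/-- **Rows of the slot `b` on any grid, 840's letters.** -/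
theorem rowB4 (h : FDs q n ez F1 F2 F3 K x s r U g u v A b C Q1 Q2 Q3 v') (hK : K ≤ n)
    (he : 0 ≤ q.e) (hl : 0 ≤ lam1 q s r) (hf : FibU q K x s r U u) {M : Pt}
    (hM1 : M.1 = ix K x.1) (hM2 : M.2.1 = ix K x.2.1) (w : Pt) :
    ∀ k < K, ∀ a m p : ℤ, ∑ x0 ∈ iv k a, ∑ y ∈ iv (k + 1) m,
      shB K M w (b x0) (k + 1) p y ⬝ᵥ shB K M w (b x0) (k + 1) p y ≤
      4 ^ k * (6 * q.e * lam1 q s r) := by
  intro k hk a m p
  have h1 := row_sft (S := M.1) (T := M.2.1) (f := fun x0 => b x0 (k + 1)) (X := iv k a) hk.le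
    (B := 4 ^ k * (2 * q.e * lam1 q s r)) (by positivity)
    (by rw [hM1, hM2]; exact row_b h hK he hl hf hk a) w.1 w.2.1 m p
  unfold shB
  exact h1.trans (le_of_eq (by ring))

/-- **Rows of the slot `σ C` on any grid, 840's letters**, `σ ^ 2 ez ≤ 1`. -/
theorem rowC4 (h : FDs q n ez F1 F2 F3 K x s r U g u v A b C Q1 Q2 Q3 v') (hK : K ≤ n)
    (hez : 0 ≤ ez) (hl : 0 ≤ lam1 q s r) {σ : ℝ} (hσ : σ ^ 2 * ez ≤ 1) {M : Pt}
    (hM1 : M.1 = ix K x.1) (hM3 : M.2.2 = ix K x.2.2) (w : Pt) :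
    ∀ k < K, ∀ a m p : ℤ, ∑ x0 ∈ iv k a, ∑ z ∈ iv (k + 1) m,
      shC K M w (fun k z x => σ • C x0 k z x) (k + 1) z p ⬝ᵥ
        shC K M w (fun k z x => σ • C x0 k z x) (k + 1) z p ≤ 4 ^ k * (6 * lam1 q s r) := by
  intro k hk a m p
  have h0 : ∀ m ∈ iv (K - k) M.2.2, ∀ p ∈ iv K M.1, ∑ x0 ∈ iv k a, ∑ z ∈ iv k m,
      (σ • C x0 (k + 1) z p) ⬝ᵥ (σ • C x0 (k + 1) z p) ≤ 4 ^ k * (2 * lam1 q s r) := by
    intro m hm p hp
    rw [hM3] at hm
    rw [hM1] at hp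
    have h2 := mul_le_mul_of_nonneg_left (row_C h hK hez hl hk a m hm p hp) (sq_nonneg σ)
    have h3 : (σ ^ 2 * ez) * (4 ^ k * (2 * lam1 q s r)) ≤ 1 * (4 ^ k * (2 * lam1 q s r)) :=
      mul_le_mul_of_nonneg_right hσ (by positivity)
    refine le_trans (le_of_eq ?_) (h2.trans ((le_of_eq ?_).trans (h3.trans (le_of_eq ?_))))
    · rw [mul_sum]
      refine sum_congr rfl fun x0 _ => ?_
      rw [mul_sum]
      refine sum_congr rfl fun z _ => ?_
      rw [smul_dotProduct, dotProduct_smul, smul_eq_mul, smul_eq_mul]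
      ring
    · ring
    · ring
  have h1 := row_sft (S := M.1) (T := M.2.2) (f := fun x0 p z => σ • C x0 (k + 1) z p)
    (X := iv k a) hk.le (by positivity) h0 w.1 w.2.2 m p
  have e : ∀ x0 z, shC K M w (fun k z x => σ • C x0 k z x) (k + 1) z p =
      sft K M.1 M.2.2 w.1 w.2.2 (fun p z => σ • C x0 (k + 1) z p) p z := by
    intro x0 z
    unfold shC sft
    simp only [and_comm]
  simp only [e]
  exact h1.trans (le_of_eq (by ring))

end slots

/-! ### In the letters of the crude bound -/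

section letters

variable {ι : Type} [Fintype ι] [DecidableEq ι] {L : ℕ} {e : ι ⊕ ι → ℤ}

/-- the trace of the encoded slot of `(0 ; b)` -/
theorem rt_inr (he : Function.Injective e) (hm : ∀ i, e i ∈ lbs L) (b : ℕ → ℤ → ℤ → ι → ℝ)
    (k a : ℕ) (n x : ℤ) :
    H433.rt L (eb L e (fun k x y => (Sum.elim (0 : ι → ℝ) (b k x y) : ι ⊕ ι → ℝ)) (L + k)) a n x =
      ((2 : ℝ) ^ a)⁻¹ * ∑ y ∈ iv a n, b k x y ⬝ᵥ b k x y := by
  rw [rt_eb]
  congr 1
  refine sum_congr rfl fun y _ => ?_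
  rw [H822.ht_cu he hm, sumElim_dotProduct_sumElim, zero_dotProduct, zero_add]

/-- the trace of the encoded slot of `(C ; 0)` -/
theorem rt_inl (he : Function.Injective e) (hm : ∀ i, e i ∈ lbs L) (C : ℕ → ℤ → ℤ → ι → ℝ)
    (k a : ℕ) (n x : ℤ) :
    H433.rt L (ec L e C (L + k)) a n x = ((2 : ℝ) ^ a)⁻¹ * ∑ z ∈ iv a n, C k z x ⬝ᵥ C k z x := by
  rw [rt_ec]
  congr 1
  refine sum_congr rfl fun z _ => ?_
  rw [H822.ht_cu he hm, sumElim_dotProduct_sumElim, zero_dotProduct, add_zero]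

end letters

end

end Vale.Agent.P141.H973.RowPM
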