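import Vale.Agent.P141.H501.StageY
import Vale.Agent.P141.H186.CloseM
import Vale.Agent.P141.H581.StageX

/-!
# P141, line A: the stage sum with slack below `e₂`, closed for one slot

`StageConcS` : the conclusion of `H501.StageY.stageYS`, crude pair sums `Z h ^ 2 √(e₂ / h)`.
`stageS` : it holds for the sums `H581.RX`, `H581.UX`. `close_vs`, `close_ms` : `H186.CloseM.close_v`,
`close_m` with the crude numbers `Z h ^ 2 √(H τ / h)`, so any power of the logarithm is allowed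
there (`log_slack`).
-/

namespace Vale.Agent.P141.H973.StageS

open Finset Matrix
open Vale.Agent.P075 (gramC gramR)
open Vale.Agent.P141.PL (Pt)
open Vale.Agent.P141.PL.H588 (hd)
open Vale.Agent.P141.H609 (UN NM)
open Vale.Agent.P141.H581 (UX RX)
open Vale.Agent.P141.H186.PriceC Vale.Agent.P141.H186.CloseY Vale.Agent.P141.H186.CloseM

noncomputable section

/-- the conclusion of the stage with slack below `e₂` -/
def StageConcS (RAB RBC RCA : ℝ → ℝ → ℝ) (τ cC T : ℝ) : Prop :=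
  ∀ (P₀ P₁ QA QB Z κ' g σ e₂ : ℝ) (D L₀ L₁ : ℕ), 0 ≤ P₀ → 0 ≤ P₁ → 0 ≤ QA → 0 ≤ QB → 0 ≤ Z →
    0 ≤ κ' → 0 < g → 0 < σ → 0 < e₂ →
    τ / 2 ^ (D - 1) ≤ σ → σ ≤ e₂ → cC / 2 ^ (L₀ - 1) ≤ g → cC / 2 ^ (L₁ - 1) ≤ e₂ →
    (∀ h, 0 < h → h ≤ τ → RAB h h ≤ P₀ * h ^ 2) →
    (∀ x, g ≤ x → x ≤ cC → √(RBC τ x * RCA x τ) ≤ κ' * x) →
    RCA g τ ≤ QA → RBC τ g ≤ QB →
    (∀ x, e₂ ≤ x → x ≤ g → RCA x σ ≤ P₁ * x ^ 2) →
    (∀ h, 0 < h → h ≤ e₂ → RBC h h ≤ Z * (h ^ 2 * √(e₂ / h))) →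
    (∀ h, 0 < h → h ≤ e₂ → RCA h h ≤ Z * (h ^ 2 * √(e₂ / h))) →
    T ≤ 6 * κ' * L₀ + 6 * D * (√(P₀ * QA) + √(P₀ * QB)) + 6 * L₁ * √(P₁ * QB) +
      81 * (P₀ + Z) * e₂

/-- **The stage sums of a family of node matrices.** -/
theorem stageS {X : Type*} {I : Finset X} {N : ℕ} {s : X → ℕ → Finset Pt} {τ cC : ℝ}
    {FA FB FC : X → NM} (hτ : 0 < τ) (hC : 0 < cC)
    (capA : ∀ i ∈ I, ∀ k ∈ Icc 1 N, ∀ m ∈ s i k,
      (1 - gramC ((τ ^ 2)⁻¹ * (4 ^ k)⁻¹) (FA i k m)).PosSemidef)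
    (capB : ∀ i ∈ I, ∀ k ∈ Icc 1 N, ∀ m ∈ s i k,
      (1 - gramC ((τ ^ 2)⁻¹ * (4 ^ k)⁻¹) (FB i k m)).PosSemidef)
    (capC : ∀ i ∈ I, ∀ k ∈ Icc 1 N, ∀ m ∈ s i k,
      (1 - gramC ((cC ^ 2)⁻¹ * (4 ^ k)⁻¹) (FC i k m)).PosSemidef) :
    StageConcS (fun x y => RX I N s x y FA FB) (fun x y => RX I N s x y FB FC)
      (fun x y => RX I N s x y FC FA) τ cC (UX I N s τ τ cC FA FB FC 0 0 0) := by
  intro P₀ P₁ QA QB Z κ' g σ e₂ D L₀ L₁ nP₀ _ _ nQB nZ nκ _ _ _ hDσ hσ hL₀ hL₁ hAB hT hQA hQB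
    hCA hZB hZA
  exact H501.StageY.stageYS (hh := hd) PL.H804.hd_symm PL.H804.hd_sq hτ hC capA capB capC nP₀ nQB nZ nκ
    hDσ hσ hL₀ hL₁ hAB hT hQA hQB hCA hZB hZA

/-- **Any power of the logarithm is below the slack** (power three). -/
theorem log_slack {y : ℝ} (hy : 1 ≤ y) : (1 + Real.log y) ^ 3 ≤ 216 * √y := by
  have hy0 : 0 < y := by linarith
  set z : ℝ := y ^ (1 / 6 : ℝ) with hz
  have hz0 : 0 < z := Real.rpow_pos_of_pos hy0 _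
  have e3 : √y = z ^ 3 := by
    rw [hz, ← Real.rpow_natCast (y ^ (1 / 6 : ℝ)) 3, ← Real.rpow_mul hy0.le, Real.sqrt_eq_rpow]
    norm_num
  have hl : Real.log z = 1 / 6 * Real.log y := by rw [hz, Real.log_rpow hy0]
  have h1 := Real.log_le_sub_one_of_pos hz0
  have h2 : 0 ≤ Real.log y := Real.log_nonneg hy
  have h3 : 1 + Real.log y ≤ 6 * z := by linarith
  rw [e3]
  calc (1 + Real.log y) ^ 3 ≤ (6 * z) ^ 3 := pow_le_pow_left₀ (by linarith) h3 3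
    _ = _ := by ring

/-- the crude part -/
theorem rest_v {v H H' N τ P₀ Z e₂ : ℝ} (hv : 0 < v) (hv1 : v ≤ 1) (hH : 1 ≤ H) (hN : 0 ≤ N)
    (hτ : 0 < τ) (he0 : 0 < e₂) (hHe : (1 + H') * e₂ = v ^ 2 * τ) (hH1 : (1 + H) ^ 3 = 1 + H')
    (nP₀ : P₀ ≤ N) (nZ : Z ≤ N * H) :
    27 * (P₀ * e₂) + 81 * (Z * √(H * τ / e₂) * e₂) ≤ 108 * (N * τ * v) := by
  have hH0 : 0 < H := by linarith
  have hW0 : 0 ≤ N * τ * v := by positivity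
  have hvv : v ^ 2 ≤ v := by nlinarith
  have h3 : 1 ≤ (1 + H) ^ 3 := one_le_pow₀ (by linarith)
  have hge : e₂ = v ^ 2 * τ / (1 + H) ^ 3 := by
    rw [hH1, eq_div_iff (by rw [← hH1]; positivity), mul_comm, hHe]
  have r0 : e₂ ≤ v * τ := by
    rw [hge]
    exact (div_le_self (by positivity) h3).trans (mul_le_mul_of_nonneg_right hvv hτ.le)
  have r1 : P₀ * e₂ ≤ N * τ * v := (mul_le_mul nP₀ r0 he0.le hN).trans (le_of_eq (by ring))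
  have r2 : √(H * τ / e₂) * e₂ ≤ τ * v / (1 + H) := by
    have h1 : √(H * τ / e₂) * e₂ = √(H * τ * e₂) := by
      rw [show H * τ * e₂ = H * τ / e₂ * e₂ ^ 2 by field_simp, Real.sqrt_mul (by positivity),
        Real.sqrt_sq he0.le]
    rw [h1]
    refine sqrt_le_of (by positivity) ?_
    rw [div_pow, le_div_iff₀ (by positivity)]
    have e : H * τ * e₂ * (1 + H) ^ 2 = (τ * v) ^ 2 * (H / (1 + H)) := by
      rw [hge]
      field_simp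
    rw [e]
    refine mul_le_of_le_one_right (by positivity) ?_
    rw [div_le_one (by positivity)]
    linarith
  have r3 : Z * √(H * τ / e₂) * e₂ ≤ N * τ * v := by
    have h1 : Z * √(H * τ / e₂) * e₂ ≤ N * H * (τ * v / (1 + H)) := by
      rw [mul_assoc]
      exact mul_le_mul nZ r2 (by positivity) (by positivity)
    refine h1.trans ?_
    have e : N * H * (τ * v / (1 + H)) = N * τ * v * (H / (1 + H)) := by ring
    rw [e]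
    refine mul_le_of_le_one_right hW0 ?_
    rw [div_le_one (by positivity)]
    linarith
  linarith

/-- **The stage with slack closed for one slot.** -/
theorem close_vs {v H Λ N K τ cC E EA EV P₀ P₁ Z T : ℝ} {RAB RBC RCA : ℝ → ℝ → ℝ}
    (hv : 0 < v) (hv1 : v ≤ 1) (hH : 1 ≤ H) (hK : 1 ≤ K) (hΛ : 0 ≤ Λ) (hN : 0 ≤ N) (hτ : 0 < τ)
    (hE : 0 ≤ E) (hEA : 0 ≤ EA) (hEV : 0 ≤ EV) (hP₀ : 0 ≤ P₀) (hP₁ : 0 ≤ P₁) (hZ : 0 ≤ Z)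
    (hst : StageConcS RAB RBC RCA τ cC T) (nCA : ∀ x x', 0 ≤ RCA x x')
    (hAB : ∀ h, 0 < h → h ≤ τ → RAB h h ≤ P₀ * h ^ 2)
    (hBC : ∀ x, v ^ 2 * τ ≤ x → RBC τ x ≤ Λ * (√(x ^ 2 * E * (τ ^ 2 * EV)) + τ ^ 2 * E))
    (hCA : ∀ x, v ^ 2 * τ ≤ x → RCA x τ ≤ Λ * (√(x ^ 2 * E * (τ ^ 2 * EA)) + τ ^ 2 * E))
    (hLow : ∀ x x', 0 < x' → K * x' ≤ x → x ≤ τ → RCA x x' ≤ P₁ * x ^ 2)
    (hZB : ∀ h, 0 < h → h ≤ τ → RBC h h ≤ Z * (h ^ 2 * √(H * τ / h)))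
    (hZA : ∀ h, 0 < h → h ≤ τ → RCA h h ≤ Z * (h ^ 2 * √(H * τ / h)))
    (nP₀ : P₀ ≤ N) (nP₁ : P₁ ≤ N) (nEA : EA ≤ N) (nE : E ≤ N * v ^ 4) (nEV : EV * v ^ 4 ≤ N)
    (nZ : Z ≤ N * H) (nC : cC ≤ H * τ) :
    T ≤ 270 * (1 + Λ) * (1 + Real.log (K * ((1 + H) ^ 3 - 1) / v ^ 8)) * (N * τ * v) := by
  have hv2 : 0 < v ^ 2 := by positivity
  have hv21 : v ^ 2 ≤ 1 := pow_le_one₀ hv.le hv1
  have hg0 : 0 < v ^ 2 * τ := mul_pos hv2 hτ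
  have hgτ : v ^ 2 * τ ≤ τ := mul_le_of_le_one_left hτ.le hv21
  have hHn : 0 ≤ H := zero_le_one.trans hH
  have hHH : H ≤ (1 + H) ^ 3 - 1 := by
    have h3 : 0 ≤ H ^ 3 := by positivity
    have h2 : 0 ≤ H ^ 2 := by positivity
    nlinarith
  generalize hH' : (1 + H) ^ 3 - 1 = H' at hHH ⊢
  have hH1 : (1 + H) ^ 3 = 1 + H' := by rw [← hH']; ring
  have hH'1 : 1 ≤ H' := hH.trans hHH
  have he0 : 0 < v ^ 2 * τ / (1 + H') := by positivity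
  have heg : v ^ 2 * τ / (1 + H') ≤ v ^ 2 * τ := div_le_self hg0.le (by linarith)
  generalize hge : v ^ 2 * τ / (1 + H') = e₂ at he0 heg
  have hHe : (1 + H') * e₂ = v ^ 2 * τ := by rw [← hge]; field_simp
  have heτ : e₂ ≤ τ := heg.trans hgτ
  have hK0 : 0 < K := by linarith
  have hσ0 : 0 < e₂ / K := by positivity
  have hσe : e₂ / K ≤ e₂ := div_le_self he0.le hK
  have hKσ : K * (e₂ / K) = e₂ := by field_simp
  have nC' : cC ≤ H' * τ := nC.trans (mul_le_mul_of_nonneg_right hHH hτ.le)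
  obtain ⟨D, L₀, L₁, hD1, hL1, hM1, bD, bL, bM⟩ := levels_v hv hv1 hH'1 hK hτ he0 hHe nC'
  have hℓ1 : 1 ≤ 1 + Real.log (K * H' / v ^ 8) := by
    have : 0 ≤ Real.log (K * H' / v ^ 8) := by
      refine Real.log_nonneg ?_
      rw [le_div_iff₀ (by positivity)]
      have hv81 : v ^ 8 ≤ 1 := pow_le_one₀ hv.le hv1
      nlinarith
    linarith
  -- the pair sums above `v ^ 2 τ`
  have kA : ∀ x, v ^ 2 * τ ≤ x → RCA x τ ≤ x * τ * (N * (Λ * (v ^ 2 + v ^ 2))) := by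
    intro x hx
    refine (hCA x hx).trans (raw_above hΛ hE hEA hτ (hg0.le.trans hx) hv2 hx hN
      (e := v ^ 2) (v1 := v ^ 2) hv2.le hv2.le ?_ ?_ le_rfl)
    · calc E * EA ≤ (N * v ^ 4) * N := mul_le_mul nE nEA hEA (by positivity)
        _ = _ := by ring
    · exact nE.trans (le_of_eq (by ring))
  have kB : ∀ x, v ^ 2 * τ ≤ x → RBC τ x ≤ x * τ * (N * (Λ * (1 + 1))) := by
    intro x hx
    refine (hBC x hx).trans (raw_above hΛ hE hEV hτ (hg0.le.trans hx) hv2 hx hN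
      (e := 1) (v1 := 1) zero_le_one zero_le_one ?_ ?_ le_rfl)
    · calc E * EV ≤ (N * v ^ 4) * EV := mul_le_mul_of_nonneg_right nE hEV
        _ = N * (EV * v ^ 4) := by ring
        _ ≤ N * N := mul_le_mul_of_nonneg_left nEV hN
        _ = _ := by ring
    · refine nE.trans ?_
      have : v ^ 4 ≤ v ^ 2 * 1 := by nlinarith
      exact mul_le_mul_of_nonneg_left this hN
  have hT : ∀ x, v ^ 2 * τ ≤ x → x ≤ cC → √(RBC τ x * RCA x τ) ≤ 2 * Λ * (N * τ * v) * x := by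
    intro x hx _
    have hx0 : 0 ≤ x := hg0.le.trans hx
    refine sqrt_le_of (by positivity) ?_
    have h1 : RBC τ x * RCA x τ ≤ (x * τ * (N * (Λ * (1 + 1)))) *
        (x * τ * (N * (Λ * (v ^ 2 + v ^ 2)))) := mul_le_mul (kB x hx) (kA x hx) (nCA _ _)
          (by positivity)
    exact h1.trans (le_of_eq (by ring))
  -- the slack
  set Zs : ℝ := Z * √(H * τ / e₂) with hZs
  have nZs : 0 ≤ Zs := mul_nonneg hZ (Real.sqrt_nonneg _)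
  have slack : ∀ {f : ℝ → ℝ → ℝ}, (∀ h, 0 < h → h ≤ τ → f h h ≤ Z * (h ^ 2 * √(H * τ / h))) →
      ∀ h, 0 < h → h ≤ e₂ → f h h ≤ Zs * (h ^ 2 * √(e₂ / h)) := by
    intro f hf h h0 h1
    refine (hf h h0 (h1.trans heτ)).trans (le_of_eq ?_)
    have e : √(H * τ / h) = √(H * τ / e₂) * √(e₂ / h) := by
      rw [← Real.sqrt_mul (by positivity)]
      congr 1
      field_simp
    rw [hZs, e]
    ring
  have fin := hst P₀ P₁ ((v ^ 2 * τ) * τ * (N * (Λ * (v ^ 2 + v ^ 2))))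
    ((v ^ 2 * τ) * τ * (N * (Λ * (1 + 1)))) Zs (2 * Λ * (N * τ * v)) (v ^ 2 * τ) (e₂ / K) e₂ D L₀ L₁
    hP₀ hP₁ (by positivity) (by positivity) nZs (by positivity) hg0 hσ0 he0 hD1 hσe hL1 hM1 hAB hT
    (kA _ le_rfl) (kB _ le_rfl)
    (fun x hx hx' => hLow x (e₂ / K) hσ0 (hKσ.le.trans hx) (hx'.trans hgτ))
    (slack hZB) (slack hZA)
  have main := fin_v (Z := 0) (L₀ := L₀) (D := D) (L₁ := L₁) hv hv1 hH'1 hΛ hN hτ he0 hHe nP₀ nP₁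
    (by positivity) hℓ1 bD bL bM
  -- the rest
  have rest := rest_v hv hv1 hH hN hτ he0 hHe hH1 nP₀ nZ
  have hW0 : 0 ≤ N * τ * v := by positivity
  have r4 : N * τ * v ≤ (1 + Λ) * (1 + Real.log (K * H' / v ^ 8)) * (N * τ * v) := by
    refine le_mul_of_one_le_left hW0 ?_
    calc (1 : ℝ) = 1 * 1 := by norm_num
      _ ≤ _ := mul_le_mul (by linarith) hℓ1 zero_le_one (by linarith)
  have e5 : 81 * (P₀ + Zs) * e₂ = 54 * (P₀ + 0) * e₂ + (27 * (P₀ * e₂) + 81 * (Zs * e₂)) := by ring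
  rw [e5] at fin
  refine fin.trans ?_
  rw [← add_assoc]
  refine (add_le_add main rest).trans ?_
  generalize N * τ * v = W at r4 ⊢
  generalize (1 : ℝ) + Real.log (K * H' / v ^ 8) = ℓ at r4 ⊢
  linarith

/-- **The stage with slack closed for one slot, letters `m = v ^ 8`.** -/
theorem close_ms {m H Λ N K τ cC E EA EV P₀ P₁ Z T : ℝ} {RAB RBC RCA : ℝ → ℝ → ℝ}
    (hm : 0 < m) (hm1 : m ≤ 1) (hH : 1 ≤ H) (hK : 1 ≤ K) (hΛ : 0 ≤ Λ) (hN : 0 ≤ N) (hτ : 0 < τ)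
    (hE : 0 ≤ E) (hEA : 0 ≤ EA) (hEV : 0 ≤ EV) (hP₀ : 0 ≤ P₀) (hP₁ : 0 ≤ P₁) (hZ : 0 ≤ Z)
    (hst : StageConcS RAB RBC RCA τ cC T) (nCA : ∀ x x', 0 ≤ RCA x x')
    (hAB : ∀ h, 0 < h → h ≤ τ → RAB h h ≤ P₀ * h ^ 2)
    (hBC : ∀ x, m ^ (1 / 4 : ℝ) * τ ≤ x →
      RBC τ x ≤ Λ * (√(x ^ 2 * E * (τ ^ 2 * EV)) + τ ^ 2 * E))
    (hCA : ∀ x, m ^ (1 / 4 : ℝ) * τ ≤ x →
      RCA x τ ≤ Λ * (√(x ^ 2 * E * (τ ^ 2 * EA)) + τ ^ 2 * E))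
    (hLow : ∀ x x', 0 < x' → K * x' ≤ x → x ≤ τ → RCA x x' ≤ P₁ * x ^ 2)
    (hZB : ∀ h, 0 < h → h ≤ τ → RBC h h ≤ Z * (h ^ 2 * √(H * τ / h)))
    (hZA : ∀ h, 0 < h → h ≤ τ → RCA h h ≤ Z * (h ^ 2 * √(H * τ / h)))
    (nP₀ : P₀ ≤ N) (nP₁ : P₁ ≤ N) (nEA : EA ≤ N) (nE : E ≤ N * √m) (nEV : EV * √m ≤ N)
    (nZ : Z ≤ N * H) (nC : cC ≤ H * τ) :
    T ≤ 270 * (1 + Λ) * (1 + Real.log (K * ((1 + H) ^ 3 - 1) / m)) *
      (N * τ * m ^ (1 / 8 : ℝ)) := by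
  set v : ℝ := m ^ (1 / 8 : ℝ) with hv
  have hv0 : 0 < v := Real.rpow_pos_of_pos hm _
  have hv1 : v ≤ 1 := Real.rpow_le_one hm.le hm1 (by norm_num)
  have e2 : m ^ (1 / 4 : ℝ) = v ^ 2 := by
    rw [hv, ← Real.rpow_natCast (m ^ (1 / 8 : ℝ)) 2, ← Real.rpow_mul hm.le]
    norm_num
  have e4 : √m = v ^ 4 := by
    rw [hv, ← Real.rpow_natCast (m ^ (1 / 8 : ℝ)) 4, ← Real.rpow_mul hm.le, Real.sqrt_eq_rpow]
    norm_num
  have e8 : m = v ^ 8 := by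
    rw [hv, ← Real.rpow_natCast (m ^ (1 / 8 : ℝ)) 8, ← Real.rpow_mul hm.le]
    norm_num
  rw [e2] at hBC hCA
  rw [e4] at nE nEV
  have h := close_vs hv0 hv1 hH hK hΛ hN hτ hE hEA hEV hP₀ hP₁ hZ hst nCA hAB hBC hCA hLow hZB hZA
    nP₀ nP₁ nEA nE nEV nZ nC
  rw [← e8] at h
  exact h

end

end Vale.Agent.P141.H973.StageS
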